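import Vale.Agent.P321.Main

/-!
P321, Q1: the worst-case sample complexity `T q n` of trace reconstruction is not bounded by a
polynomial: for every fixed deletion probability `q` in `(0,1)` and every `C`,
`n ^ C ≤ T q n` for all large `n`.
-/

namespace Vale.Agent.Results.P321.Superpolynomial

open Vale.Agent.P321

theorem result (q : ℝ) (h0 : 0 < q) (h1 : q < 1) :
    ∀ C : ℕ, ∃ n0 : ℕ, ∀ n : ℕ, n0 ≤ n → (n : ℕ∞) ^ C ≤ T q n :=
  fun C => superpoly q h0 h1 C

end Vale.Agent.Results.P321.Superpolynomial
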